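import Vale.Agent.P283R.H.St

/-!
# P283R, block H: inversion of adjunction along a flag (words and rows)
-/

open Set
open Vale.Agent.P285N.Brep (jac Fr)

noncomputable section

namespace Vale.Agent.P283R.Hl

open Vale.Agent.P287D Vale.Agent.P283R.H

section defs

variable {B K : Type} [CommRing B] [Algebra ℂ B] [Field K] [Algebra ℂ K] {n : ℕ}

/-- the centre of `P` passes through `p` -/
def Th (ψ : B →ₐ[ℂ] K) (p : Ideal B) (P : Pl K) : Prop :=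
  ∀ a, ψ a ∈ P.ring ∧ (P.rd (ψ a) = 0 → a ∈ p)

/-- the centre of `P` is `p` -/
def Ce (ψ : B →ₐ[ℂ] K) (p : Ideal B) (P : Pl K) : Prop :=
  ∀ a, ψ a ∈ P.ring ∧ (P.rd (ψ a) = 0 ↔ a ∈ p)

/-- the centre of `P` has the dimension at least `d` -/
def Pm (d : ℕ) (ψ : B →ₐ[ℂ] K) (P : Pl K) : Prop :=
  ∃ v : Fin d → B, AlgebraicIndependent ℂ fun i => P.rd (ψ (v i))

/-- `K` is the function field of `V(J)` -/
structure Md (ψ : B →ₐ[ℂ] K) (J : Ideal B) : Prop where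
  ker : ∀ a, ψ a = 0 ↔ a ∈ J
  fr : ∀ x : K, ∃ a b, x = ψ a / ψ b

/-- a flag from `J` to `I` which is cut by `u` near `p` -/
def Tw (p I : Ideal B) : ∀ c : ℕ, Ideal B → (Fin c → B) → Prop
  | 0, J, _ => J = I
  | c + 1, J, u => ∃ J' : Ideal B, J'.IsPrime ∧ J ≤ J' ∧ J' ≤ I ∧ u 0 ∈ J' ∧ u 0 ∉ J ∧
      (∀ i : Fin c, u i.succ ∉ J') ∧
      (∀ r : Ideal B, r.IsPrime → J ≤ r → r ≤ p → u 0 ∈ r → J' ≤ r) ∧
      (∀ a b, ∃ s t, s ∉ J' ∧ (s * a - t * b ∈ J ∨ s * b - t * a ∈ J)) ∧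
      Tw p I c J' fun i => u i.succ

/-- the frame `(u, v)` -/
def fr (v : Fin (n + 1) → B) : ∀ c : ℕ, (Fin c → B) → Fin (n + c + 1) → B
  | 0, _ => v
  | c + 1, u => Fin.cons (u 0) (fr v c fun i => u i.succ)

/-- the log discrepancy of the form `d(u, v) / ((∏ u) ^ (1 - δ) (w / w') ^ (1 / m))` -/
def lg {c : ℕ} (δ : ℝ) (m : ℕ) (v : Fin (n + 1) → B) (w w' : B) (u : Fin c → B)
    (ψ : B →ₐ[ℂ] K) (P : Pl K) : ℝ :=
  1 + kap (fun i => ψ (fr v c u i)) P - (1 - δ) * ∑ i, (P.ord (ψ (u i)) : ℝ) -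
    P.ord (ψ w / ψ w') / m

/-- the bound on `V(I)` -/
def Bot (ε : ℝ) (m : ℕ) (p I : Ideal B) (v : Fin (n + 1) → B) (w w' : B) : Prop :=
  ∀ (K : Type) [Field K] [Algebra ℂ K] (ψ : B →ₐ[ℂ] K), Md ψ I → ∀ P, Th ψ p P →
    ε ≤ ld (fun i => ψ (v i)) m (ψ w / ψ w') P

variable {F F' : Type} [Field F] [Algebra ℂ F] [Field F'] [Algebra ℂ F'] {S : Subalgebra ℂ F}
  {S' : Subalgebra ℂ F'}

/-- the ring of invariants -/
def Iv (A : Subgroup (F' ≃ₐ[ℂ] F')) (S' : Subalgebra ℂ F') : Subalgebra ℂ S' where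
  carrier := {s | Fix A (s : F')}
  mul_mem' := fun ha hb σ h => by
    rw [Subalgebra.coe_mul, map_mul, ha σ h, hb σ h]
  add_mem' := fun ha hb σ h => by
    rw [Subalgebra.coe_add, map_add, ha σ h, hb σ h]
  algebraMap_mem' := fun c σ _ => σ.commutes c

/-- the map of the invariants to `F` -/
def mp (A : Subgroup (F' ≃ₐ[ℂ] F')) (π : S' →ₐ[ℂ] S) : Iv A S' →ₐ[ℂ] F :=
  S.val.comp (π.comp (Iv A S').val)

/-- the ideal of the invariants which vanish at `p` -/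
def dn (A : Subgroup (F' ≃ₐ[ℂ] F')) (π : S' →ₐ[ℂ] S) (p : Ideal S) : Ideal (Iv A S') :=
  p.comap (π.comp (Iv A S').val)

end defs

/-- **LOOP** -/
def LOOP : Prop := ∀ (B : Type) [CommRing B] [Algebra ℂ B] (n m : ℕ) (ε δ : ℝ) (p I : Ideal B)
  (v : Fin (n + 1) → B) (w w' : B), Algebra.FiniteType ℂ B → p.IsPrime → I < p → w ∉ I → w' ∉ I →
    (∀ q : MvPolynomial (Fin (n + 1)) ℂ, MvPolynomial.aeval v q ∈ I → q = 0) → 0 < ε → ε ≤ 1 →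
    0 < δ → Bot ε m p I v w w' → ∀ (c : ℕ) (J : Ideal B) (u : Fin c → B), Tw p I c J u →
    ∀ (K : Type) [Field K] [Algebra ℂ K] (ψ : B →ₐ[ℂ] K), FF K (n + c + 1) → Md ψ J →
      (∀ R, Th ψ p R → Pm (n + c) ψ R → lg δ m v w w' u ψ R ≤ 1) →
      ∀ E, Ce ψ p E → ε ≤ lg δ m v w w' u ψ E

/-- **TWR**: the flag of the invariant ring -/
def TWR : Prop := ForH fun F F' _ _ _ _ _ S' π p => ∀ (N c M : ℕ) (f : Fin c → S')
  (z : Fin M → F') (D' : Fin M → Derivation ℂ F' F') (A' : Subgroup (F' ≃ₐ[ℂ] F'))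
  (A : Subgroup (F ≃ₐ[ℂ] F)) (r : ℕ) (u : Fin c → Iv A' S'), Up N π p f z D' → Cor π p A' A →
    (∀ i, Eig A' (f i : F')) → 0 < r → (∀ i, (u i : S') = f i ^ r) →
    Tw (dn A' π p) (dn A' π ⊥) c ⊥ u

/-- **UPD**: the field of invariants -/
def UPD : Prop := ForH fun F F' _ _ _ _ S S' π p => ∀ (N : ℕ) (A' : Subgroup (F' ≃ₐ[ℂ] F'))
  (A : Subgroup (F ≃ₐ[ℂ] F)), Aff N S → S'.FG → Function.Surjective π → p.IsPrime →
    Cor π p A' A → Algebra.FiniteType ℂ (Iv A' S') ∧ (p ≠ ⊥ → dn A' π ⊥ < dn A' π p) ∧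
      ∀ (K : Type) [Field K] [Algebra ℂ K] (ψ : Iv A' S' →ₐ[ℂ] K), Md ψ (dn A' π ⊥) →
        FF K N ∧ ∃ ι : K →ₐ[ℂ] F, (∀ b, ι (ψ b) = mp A' π b) ∧ (∀ h, Fix A h ↔ h ∈ range ι) ∧
          (∀ P, ∃ R, Lies ι.toRingHom R P) ∧ (∀ R, ∃ P, Lies ι.toRingHom R P) ∧
          ∀ R P, Lies ι.toRingHom R P → (Th ψ (dn A' π p) P → ∃ q ≤ p, Cen S q R) ∧
            (Cen S p R → Ce ψ (dn A' π p) P) ∧
            ∀ d, Pm d ψ P → (∀ b, ψ b ∈ P.ring) → Pm d (mp A' π) R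

/-- **FRM**: an invariant frame and an invariant equation -/
def FRM : Prop := ForH fun F F' _ _ _ _ _ S' π p => ∀ (n c M : ℕ) (f : Fin c → S')
  (z : Fin M → F') (D' : Fin M → Derivation ℂ F' F') (h : Up (n + 1) π p f z D')
  (y : Fin (n + 1) → F) (j : F) (A' : Subgroup (F' ≃ₐ[ℂ] F')) (A : Subgroup (F ≃ₐ[ℂ] F)) (g : S')
  (Q : ℕ), Frm y → j ≠ 0 → Rs π h.dim D' f y j → Cor π p A' A → (∀ l, Eig A' (z l)) →
    (∀ i, Eig A' (f i : F')) → Eig A' (g : F') → π g ≠ 0 → 0 < Q →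
    ∃ (r : ℕ) (u : Fin c → Iv A' S') (v : Fin (n + 1) → Iv A' S') (w w' : Iv A' S'), 0 < r ∧
      (∀ i, (u i : S') = f i ^ r) ∧ (∀ i, (f i : F') ≠ 0) ∧ mp A' π w ≠ 0 ∧ mp A' π w' ≠ 0 ∧
      Frm (fun i => mp A' π (v i)) ∧ Frm (fun i => mp A' (AlgHom.id ℂ S') (fr v c u i)) ∧
      (∀ P : Pl F', ld z Q ((∏ i, (f i : F')) ^ Q * g) P =
        lg 0 (Q * r) v w w' u (mp A' (AlgHom.id ℂ S')) P) ∧
      ∀ R : Pl F, ld y Q (j ^ Q * π g) R =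
        ld (fun i => mp A' π (v i)) (Q * r) (mp A' π w / mp A' π w') R

/-- **PRM**: a place whose centre is a divisor -/
def PRM : Prop := ∀ (N : ℕ) (F : Type) [Field F] [Algebra ℂ F] (S : Subalgebra ℂ F) (q : Ideal S)
  (R : Pl F) (v : Fin N → S), Aff (N + 1) S → IsIntegrallyClosed S → Cen S q R →
    (AlgebraicIndependent ℂ fun i => R.rd (v i)) → ∀ a ∈ R.ring, a ∈ Lo S q

/-- **HUPL** -/
def HUPL : Prop := LOOP → TWR → UPD → FRM → PRM → HUP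

end Vale.Agent.P283R.Hl
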